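import Vale.Agent.P174.Main

/-! Howie's conjecture: nonsingular systems of equations over any group are solvable. -/

namespace Vale.Agent.Results.P174.Howie

universe u

/-- The homomorphism `G * F_n → ℤ^n` that kills `G` and sends `x_j` to `e_j`. -/
def expSum (G : Type u) [Group G] (n : ℕ) :
    Monoid.Coprod G (FreeGroup (Fin n)) →* Multiplicative (Fin n → ℤ) :=
  Monoid.Coprod.lift 1 (FreeGroup.lift fun j => Multiplicative.ofAdd (Pi.single j 1))

/-- The exponent-sum matrix of a system, with entries viewed in `ℚ`. -/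
def expMatrix {G : Type u} [Group G] {m n : ℕ}
    (w : Fin m → Monoid.Coprod G (FreeGroup (Fin n))) : Matrix (Fin m) (Fin n) ℚ :=
  Matrix.of fun i j => (((expSum G n (w i)).toAdd j : ℤ) : ℚ)

theorem result (G : Type u) [Group G] (m n : ℕ)
    (w : Fin m → Monoid.Coprod G (FreeGroup (Fin n))) (hrank : (expMatrix w).rank = m) :
    Function.Injective ((QuotientGroup.mk' (Subgroup.normalClosure (Set.range w))).comp
      (Monoid.Coprod.inl : G →* Monoid.Coprod G (FreeGroup (Fin n)))) ∧
    ∃ (H : Type u) (_ : Group H) (ι : G →* H) (h : Fin n → H), Function.Injective ι ∧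
      ∀ i, Monoid.Coprod.lift ι (FreeGroup.lift h) (w i) = 1 := by
  obtain ⟨σ, hσ, hdet⟩ := Vale.Agent.P174.exists_minor
    (Matrix.of fun i j => (expSum G n (w i)).toAdd j) hrank
  have key : Function.Injective ((QuotientGroup.mk' (Subgroup.normalClosure (Set.range w))).comp
      (Monoid.Coprod.inl : G →* Monoid.Coprod G (FreeGroup (Fin n)))) := by
    rw [injective_iff_map_eq_one]
    intro g hg
    exact Vale.Agent.P174.howie_minor (expSum G n) (fun g => by simp [expSum])
      (fun j => by simp [expSum]) w σ hσ hdet g ((QuotientGroup.eq_one_iff _).mp hg)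
  refine ⟨key, _, inferInstance, _, fun j => QuotientGroup.mk' _
    (Monoid.Coprod.inr (FreeGroup.of j)), key, fun i => ?_⟩
  have : Monoid.Coprod.lift ((QuotientGroup.mk' (Subgroup.normalClosure (Set.range w))).comp
      Monoid.Coprod.inl) (FreeGroup.lift fun j => QuotientGroup.mk' _
        (Monoid.Coprod.inr (FreeGroup.of j))) =
      QuotientGroup.mk' (Subgroup.normalClosure (Set.range w)) := by
    ext <;> simp
  rw [this]
  exact (QuotientGroup.eq_one_iff _).mpr (Subgroup.subset_normalClosure ⟨i, rfl⟩)

end Vale.Agent.Results.P174.Howie
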